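import Vale.Agent.P022.H431.Theta
import Vale.Agent.P022.H138.LawX
import Vale.Agent.P022.H964.Thx
import Vale.Agent.P022.H118.PoS
import Vale.Agent.P022.H889.Hol

/-!
# P022, real quadratic case, row [OMEGA](c): the form `A = ∑ q ^ (x ^ 2 + y ^ 2)`

Part 2: the transformation law and the expansions at all cusps.
-/

open scoped ModularForm MatrixGroups Real Manifold
open UpperHalfPlane Matrix CongruenceSubgroup
open Vale.Agent.P022.H220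

noncomputable section

namespace Vale.Agent.P022.H431

/-- the character `χ₋₄` with values in `ℂ` -/
def om (d : ℤ) : ℂ := ((ZMod.χ₄ (d : ZMod 4) : ℤ) : ℂ)

theorem om_mul (d e : ℤ) : om (d * e) = om d * om e := by
  unfold om
  push_cast
  rw [map_mul]
  push_cast
  ring

theorem om_one : om 1 = 1 := by simp [om]

theorem odd_mod {d : ℤ} (hd : Odd d) : d % 4 = 1 ∨ d % 4 = 3 := by
  have := Int.odd_iff.mp hd
  omega

theorem om_eq_one {d : ℤ} (hd : d % 4 = 1) : om d = 1 := by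
  unfold om
  rw [ZMod.χ₄_int_one_mod_four hd]
  simp

theorem om_eq_neg_one {d : ℤ} (hd : d % 4 = 3) : om d = -1 := by
  unfold om
  rw [ZMod.χ₄_int_three_mod_four hd]
  simp

theorem om_sq {d : ℤ} (hd : Odd d) : om d * om d = 1 := by
  rcases odd_mod hd with h | h
  · rw [om_eq_one h, one_mul]
  · rw [om_eq_neg_one h]
    norm_num

theorem om_pow_odd {d : ℤ} (hd : Odd d) {j : ℕ} (hj : Odd j) : om d ^ j = om d := by
  rcases odd_mod hd with h | h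
  · rw [om_eq_one h, one_pow]
  · rw [om_eq_neg_one h, hj.neg_one_pow]

theorem om_pow_even {d : ℤ} (hd : Odd d) {j : ℕ} (hj : Even j) : om d ^ j = 1 := by
  rcases odd_mod hd with h | h
  · rw [om_eq_one h, one_pow]
  · rw [om_eq_neg_one h, hj.neg_one_pow]

/-- `d χ₋₄(d) = 1 + 4 y` -/
theorem om_mod {d : ℤ} (hd : Odd d) : ∃ y : ℤ, (d : ℂ) * om d = 1 + 4 * (y : ℂ) := by
  rcases odd_mod hd with h | h
  · refine ⟨d / 4, ?_⟩
    have h1 : d = 1 + 4 * (d / 4) := by omega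
    rw [om_eq_one h, mul_one]
    conv_lhs => rw [h1]
    push_cast
    ring
  · refine ⟨-(d / 4) - 1, ?_⟩
    have h1 : d = 3 + 4 * (d / 4) := by omega
    rw [om_eq_neg_one h]
    conv_lhs => rw [h1]
    push_cast
    ring

theorem krD_four {d : ℤ} (hd : Odd d) : H776.krD 4 d = ZMod.χ₄ (d : ZMod 4) := by
  have h4 : (4 : ℕ).factorization 2 = 2 := by
    rw [show (4 : ℕ) = 2 ^ 2 by norm_num, Nat.Prime.factorization_pow Nat.prime_two]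
    simp
  have ho : H776.oddP 4 = 1 := by
    unfold H776.oddP
    rw [h4]
    norm_num
  rw [H776.krD, H776.c2D, if_neg (by decide), ho, h4]
  have h1 : (4 : ℕ) / 2 ^ 2 = 1 := by norm_num
  rw [h1, H776.c2_congr_four (by norm_num) hd, jacobiSym.one_right, mul_one]

theorem odd_of {A B C d : ℤ} (h : A * d - B * C = 1) (h4 : (4 : ℤ) ∣ C) : Odd d := by
  rw [← Int.not_even_iff_odd]
  intro hd
  obtain ⟨x, rfl⟩ := h4
  obtain ⟨y, rfl⟩ := hd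
  have : 2 * (A * y - B * (2 * x)) = 1 := by linear_combination h
  omega

/-- **the transformation law of `A` under `Γ₀(4)`** -/
theorem AA_slash (γ : SL(2, ℤ)) (h : (4 : ℤ) ∣ γ.1 1 0) (τ : ℍ) :
    (AA ∣[((1 : ℕ) : ℤ)] γ) τ = om (γ.1 1 1) * AA τ := by
  have hdet := H889.det_eq γ
  have hodd : Odd (γ.1 1 1) := odd_of hdet h
  have key := H138.LAWX H118.PO 1 0 1 4 (by norm_num) (by norm_num) (by norm_num) 0 1 one_pos
    (fun _ => 1) (fun _ _ => rfl) (γ.1 0 0) (γ.1 0 1) (γ.1 1 0) (γ.1 1 1) hdet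
    (by simpa using h) (τ : ℂ) τ.im_pos
  rw [krD_four hodd] at key
  rw [H889.slash_eq]
  unfold AA om
  rw [H889.smul_coe]
  unfold H889.den
  rw [key]
  have hne : (γ.1 1 0 : ℂ) * (τ : ℂ) + (γ.1 1 1 : ℂ) ≠ 0 := H889.den_ne γ τ
  field_simp
  simp

theorem four_dvd_of_mem {γ : SL(2, ℤ)} (h : γ ∈ Gamma0 4) : (4 : ℤ) ∣ γ.1 1 0 := by
  rw [Gamma0_mem] at h
  exact (ZMod.intCast_zmod_eq_zero_iff_dvd _ 4).mp (by simpa using h)

theorem AA_gamma1 (δ : SL(2, ℤ)) (h : δ ∈ Gamma1 4) : AA ∣[((1 : ℕ) : ℤ)] δ = AA := by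
  funext τ
  rw [Gamma1_mem] at h
  have h4 : (4 : ℤ) ∣ δ.1 1 0 := (ZMod.intCast_zmod_eq_zero_iff_dvd _ 4).mp (by simpa using h.2.2)
  have h1 : om (δ.1 1 1) = 1 := by
    unfold om
    rw [h.2.1]
    simp
  rw [AA_slash δ h4 τ, h1, one_mul]

/-- **the expansions of `A` at all cusps**, letters of `H964` -/
theorem AA_thx {O : Subring ℂ} (hO1 : ∀ x : ℂ, IsIntegral ℤ x → x ∈ O)
    (hO2 : ∀ n : ℕ, Odd n → (n : ℂ)⁻¹ ∈ O) :
    ∃ R : ℕ, 0 < R ∧ ∃ B, ∀ γ : SL(2, ℤ), Ex (H964.dn B O) R (AA ∣[((1 : ℕ) : ℤ)] γ) := by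
  refine H964.thx_unif H118.PO (a := 1) (b := 0) (c := 1) (D := 4) (by norm_num) (by norm_num)
    (by norm_num) 0 one_pos (f := fun _ => 1) (fun _ _ => rfl) (fun _ => isIntegral_one) hO1 hO2
    (Gamma1 4) (fun δ hδ => ?_)
  exact AA_gamma1 δ hδ

theorem dn_le_two (O : Subring ℂ) (B : ℕ) : H964.dn B O ≤ H645.two O (-(B : ℤ)) := by
  intro x hx
  rw [H964.mem_dn] at hx
  refine ⟨_, hx, ?_⟩
  rw [_root_.zpow_neg, zpow_natCast, inv_mul_cancel_left₀ (pow_ne_zero _ two_ne_zero)]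

/-- **the expansions of `A` at all cusps**, letters of `H645` -/
theorem AA_two {O : Subring ℂ} (hO1 : ∀ x : ℂ, IsIntegral ℤ x → x ∈ O)
    (hO2 : ∀ n : ℕ, Odd n → (n : ℂ)⁻¹ ∈ O) :
    ∃ R : ℕ, 0 < R ∧ ∃ B : ℕ, ∀ γ : SL(2, ℤ),
      Ex (H645.two O (-(B : ℤ))) R (AA ∣[((1 : ℕ) : ℤ)] γ) := by
  obtain ⟨R, hR, B, h⟩ := AA_thx hO1 hO2
  exact ⟨R, hR, B, fun γ => (h γ).mono (dn_le_two O B)⟩

theorem AA_mdiff : MDifferentiable 𝓘(ℂ) 𝓘(ℂ) AA := by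
  have h := Ex_AA_one (⊤ : Subring ℂ)
  have h1 : Ex (H645.two (⊤ : Subring ℂ) 0) 1 AA := by
    refine Ex.congr (fun τ => ?_) (Ex.add (h.mono (H645.two_anti _ (by norm_num)))
      (Ex.const (c := 1) (by rw [H645.two_zero]; trivial)))
    ring
  exact H889.Ex.mdiff h1

/-! ### powers and products -/

theorem slash_mul' (k j : ℕ) (F G : ℍ → ℂ) (γ : SL(2, ℤ)) (τ : ℍ) :
    ((fun τ => F τ * G τ) ∣[((k + j : ℕ) : ℤ)] γ) τ =
      (F ∣[((k : ℕ) : ℤ)] γ) τ * (G ∣[((j : ℕ) : ℤ)] γ) τ := by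
  rw [H889.slash_eq, H889.slash_eq, H889.slash_eq, div_mul_div_comm, ← pow_add]

theorem slash_pow' (F : ℍ → ℂ) (j : ℕ) (γ : SL(2, ℤ)) (τ : ℍ) :
    ((fun τ => F τ ^ j) ∣[((j : ℕ) : ℤ)] γ) τ = (F ∣[((1 : ℕ) : ℤ)] γ) τ ^ j := by
  rw [H889.slash_eq, H889.slash_eq, div_pow, pow_one]

/-- **slashes of `F A ^ j`** -/
theorem slash_AA_pow (F : ℍ → ℂ) (k j : ℕ) (γ : SL(2, ℤ)) (τ : ℍ) :
    ((fun τ => F τ * AA τ ^ j) ∣[((k + j : ℕ) : ℤ)] γ) τ =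
      (F ∣[((k : ℕ) : ℤ)] γ) τ * (AA ∣[((1 : ℕ) : ℤ)] γ) τ ^ j := by
  rw [slash_mul', slash_pow']

/-- slashes of `F A ^ j` under `Γ₀(4)` -/
theorem slash_AA_pow_gamma0 (F : ℍ → ℂ) (k j : ℕ) (γ : SL(2, ℤ)) (h : (4 : ℤ) ∣ γ.1 1 0) (τ : ℍ) :
    ((fun τ => F τ * AA τ ^ j) ∣[((k + j : ℕ) : ℤ)] γ) τ =
      (F ∣[((k : ℕ) : ℤ)] γ) τ * (om (γ.1 1 1) * AA τ) ^ j := by
  rw [slash_AA_pow, AA_slash γ h]

/-- `F A ^ j` has trivial character at `2` if `F` has character `χ₋₄` and `j` is odd -/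
theorem slash_AA_inv (F : ℍ → ℂ) (k j : ℕ) (hj : Odd j) (γ : SL(2, ℤ)) (h : (4 : ℤ) ∣ γ.1 1 0)
    (hF : F ∣[((k : ℕ) : ℤ)] γ = fun τ => om (γ.1 1 1) * F τ) :
    (fun τ => F τ * AA τ ^ j) ∣[((k + j : ℕ) : ℤ)] γ = fun τ => F τ * AA τ ^ j := by
  funext τ
  have hodd : Odd (γ.1 1 1) := odd_of (H889.det_eq γ) h
  rw [slash_AA_pow_gamma0 F k j γ h, hF, mul_pow, om_pow_odd hodd hj]
  dsimp only
  linear_combination (F τ * AA τ ^ j) * om_sq hodd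

end Vale.Agent.P022.H431
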