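import Vale.Agent.P022.H431.A
import Vale.Agent.P022.H472.Lit4

/-!
# P022, real quadratic case, row [BB]
-/

open scoped ModularForm MatrixGroups Real Manifold
open UpperHalfPlane Matrix CongruenceSubgroup
open Vale.Agent.P022.H220

noncomputable section

namespace Vale.Agent.P022.H431

/-- `F` has an expansion with algebraic coefficients of denominator `t` -/
def ExZ (t : ℕ) (F : ℍ → ℂ) : Prop := ∃ φ : ℂ → ℂ, X.Exp X.Zb ((t : ℂ)⁻¹) φ ∧ ∀ τ : ℍ, F τ = φ τ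

theorem mem_Zb {z : ℂ} : z ∈ X.Zb ↔ IsIntegral ℤ z := Iff.rfl

theorem ExZ.mul {t : ℕ} {F : ℍ → ℂ} (h : ExZ t F) (s : ℕ) (hs : 0 < s) : ExZ (t * s) F := by
  obtain ⟨φ, ⟨R, a, hR, ha, hφ⟩, h⟩ := h
  refine ⟨φ, ⟨R, fun n => s * a n, hR, fun n => X.Zb.mul_mem (natCast_mem _ s) (ha n),
    fun w hw => ?_⟩, h⟩
  refine hs_congr' (hφ w hw) fun n => ?_
  have hs' : (s : ℂ) ≠ 0 := by exact_mod_cast hs.ne'
  push_cast
  rw [mul_inv]
  field_simp

/-- an algebraic number times a positive integer is integral -/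
theorem exists_den {C : ℂ} (hC : IsAlgebraic ℚ C) : ∃ t : ℕ, 0 < t ∧ IsIntegral ℤ ((t : ℂ) * C) := by
  have hC' : IsAlgebraic ℤ C := (IsFractionRing.isAlgebraic_iff ℤ ℚ ℂ).2 hC
  obtain ⟨n, hn, hi⟩ := hC'.exists_integral_multiple
  refine ⟨n.natAbs, Int.natAbs_pos.2 hn, ?_⟩
  rcases Int.natAbs_eq n with h | h
  · have : ((n.natAbs : ℕ) : ℂ) = (n : ℂ) := by
      conv_rhs => rw [h]
      simp
    rw [this]
    simpa [zsmul_eq_mul] using hi
  · have : ((n.natAbs : ℕ) : ℂ) = -(n : ℂ) := by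
      conv_rhs => rw [h]
      simp
    rw [this, neg_mul]
    exact IsIntegral.neg (by simpa [zsmul_eq_mul] using hi)

theorem ExZ_VI {a b c : ℤ} {D : ℕ} (ha : 0 < a) (hD : 0 < D)
    (hdisc : b ^ 2 - 4 * a * c = -(D : ℤ)) (κ : ℕ)
    {F : ℍ → ℂ} (hF : F ∈ H964.VI a b c D κ) : ∃ t : ℕ, 0 < t ∧ ExZ t F := by
  obtain ⟨C, ρ, f, q, hC, hρ, hq, hf, hi, h⟩ := hF
  obtain ⟨t, ht, hi'⟩ := exists_den hC
  obtain ⟨A, hA, hs⟩ := H964.expansion ha hD hdisc κ hρ hq hf hi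
  refine ⟨t, ht, fun w => F (UpperHalfPlane.ofComplex w), ⟨ρ.den, fun n => (t * C) * A n,
    ρ.den_pos, fun n => X.Zb.mul_mem hi' (hA n), fun w hw => ?_⟩, fun τ => ?_⟩
  · have h1 := (hs (UpperHalfPlane.ofComplex w)).mul_left C
    rw [← h, UpperHalfPlane.ofComplex_apply_of_im_pos hw] at h1
    show HasSum _ (F (UpperHalfPlane.ofComplex w))
    rw [UpperHalfPlane.ofComplex_apply_of_im_pos hw]
    refine hs_congr' h1 fun n => ?_
    have ht' : (t : ℂ) ≠ 0 := by exact_mod_cast ht.ne'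
    rw [UpperHalfPlane.coe_mk]
    field_simp
  · dsimp only
    rw [UpperHalfPlane.ofComplex_apply]

/-- uniformity of the denominator over `SL(2, ℤ)` -/
theorem unifZ {F : ℍ → ℂ} {k : ℤ} (Γ : Subgroup SL(2, ℤ)) [Γ.FiniteIndex]
    (hinv : ∀ δ ∈ Γ, F ∣[k] δ = F) (h : ∀ γ : SL(2, ℤ), ∃ t : ℕ, 0 < t ∧ ExZ t (F ∣[k] γ)) :
    ∃ t : ℕ, 0 < t ∧ ∀ γ : SL(2, ℤ), ExZ t (F ∣[k] γ) := by
  classical
  have hfin : Finite (SL(2, ℤ) ⧸ Γ) := Subgroup.finite_quotient_of_finiteIndex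
  have := Fintype.ofFinite (SL(2, ℤ) ⧸ Γ)
  choose t ht ht' using h
  refine ⟨∏ x : SL(2, ℤ) ⧸ Γ, t x.out⁻¹, Finset.prod_pos fun x _ => ht _, fun γ => ?_⟩
  obtain ⟨x, hx⟩ : ∃ x : SL(2, ℤ) ⧸ Γ, QuotientGroup.mk (γ⁻¹) = x := ⟨_, rfl⟩
  have h1 : (γ⁻¹)⁻¹ * x.out ∈ Γ := by
    rw [← QuotientGroup.eq, hx]
    exact (Quotient.out_eq x).symm
  rw [inv_inv] at h1
  have h2 : F ∣[k] x.out⁻¹ = F ∣[k] γ := by
    have h3 : x.out⁻¹ = (γ * x.out)⁻¹ * γ := by group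
    rw [h3, SlashAction.slash_mul, hinv _ (Γ.inv_mem h1)]
  have h4 := ht' x.out⁻¹
  rw [h2] at h4
  have h6 : ∏ x : SL(2, ℤ) ⧸ Γ, t x.out⁻¹ =
      t x.out⁻¹ * ∏ y ∈ Finset.univ.erase x, t y.out⁻¹ :=
    (Finset.mul_prod_erase _ (fun x : SL(2, ℤ) ⧸ Γ => t x.out⁻¹) (Finset.mem_univ x)).symm
  rw [h6]
  exact h4.mul _ (Finset.prod_pos fun y _ => ht _)

/-- the coefficients of `u = ∑_{n ≥ 1} q ^ (n ^ 2)` -/
def cu (n : ℕ) : ℤ :=
  open Classical in if n ∈ Set.range (fun n : ℕ => (n + 1) ^ 2) then 1 else 0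

theorem uu_hs (τ : ℍ) : HasSum (fun n : ℕ => (cu n : ℂ) *
    Complex.exp (2 * π * Complex.I * n * (τ : ℂ))) (uu τ) := by
  classical
  refine (inj_sq.hasSum_iff ?_).1 (hs_congr' (uu_hasSum τ) fun n => ?_)
  · intro x hx
    unfold cu
    rw [if_neg hx, Int.cast_zero, zero_mul]
  · simp only [Function.comp_apply]
    unfold cu
    rw [if_pos (Set.mem_range_self n), Int.cast_one, one_mul]
    congr 1
    push_cast
    ring

/-- product of `q`-expansions -/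
theorem hs_mul {F G : ℍ → ℂ} (p q : PowerSeries ℤ)
    (hF : ∀ τ : ℍ, HasSum (fun n : ℕ => ((PowerSeries.coeff n p : ℤ) : ℂ) *
      Complex.exp (2 * π * Complex.I * n * (τ : ℂ))) (F τ))
    (hG : ∀ τ : ℍ, HasSum (fun n : ℕ => ((PowerSeries.coeff n q : ℤ) : ℂ) *
      Complex.exp (2 * π * Complex.I * n * (τ : ℂ))) (G τ)) (τ : ℍ) :
    HasSum (fun n : ℕ => ((PowerSeries.coeff n (p * q) : ℤ) : ℂ) *
      Complex.exp (2 * π * Complex.I * n * (τ : ℂ))) (F τ * G τ) := by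
  have h1 := (hF τ).summable.norm
  have h2 := (hG τ).summable.norm
  have h3 := (summable_norm_sum_mul_antidiagonal_of_summable_norm h1 h2).of_norm.hasSum
  rw [← tsum_mul_tsum_eq_tsum_sum_antidiagonal_of_summable_norm h1 h2, (hF τ).tsum_eq,
    (hG τ).tsum_eq] at h3
  refine hs_congr' h3 fun n => ?_
  rw [PowerSeries.coeff_mul]
  push_cast
  rw [Finset.sum_mul]
  refine Finset.sum_congr rfl fun kl hkl => ?_
  rw [Finset.HasAntidiagonal.mem_antidiagonal] at hkl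
  have e : Complex.exp (2 * π * Complex.I * n * (τ : ℂ)) =
      Complex.exp (2 * π * Complex.I * kl.1 * (τ : ℂ)) *
      Complex.exp (2 * π * Complex.I * kl.2 * (τ : ℂ)) := by
    rw [← Complex.exp_add, ← hkl]
    congr 1
    push_cast
    ring
  rw [e]
  ring

theorem hs_one (τ : ℍ) : HasSum (fun n : ℕ => ((PowerSeries.coeff n (1 : PowerSeries ℤ) : ℤ) : ℂ) *
      Complex.exp (2 * π * Complex.I * n * (τ : ℂ))) 1 := by
  classical
  refine hs_congr' (hasSum_ite_eq (0 : ℕ) (1 : ℂ)) fun n => ?_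
  rw [PowerSeries.coeff_one]
  by_cases h : n = 0
  · subst h
    simp
  · simp [h]

/-- **[BB]** -/
theorem BB : R.BBStmt := by
  refine ⟨AA, PowerSeries.mk cu + PowerSeries.mk cu * PowerSeries.mk cu, ?_, ?_, ?_⟩
  · intro γ h
    funext τ
    rw [AA_slash γ h τ]
    rfl
  · have h := unifZ (F := AA) (k := ((1 : ℕ) : ℤ)) (Gamma1 4) (fun δ hδ => AA_gamma1 δ hδ)
      (fun γ => by
        have h1 := H964.VI_all H118.PO (a := 1) (b := 0) (c := 1) (D := 4) (by norm_num)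
          (by norm_num) (by norm_num) 0 (H964.mem_VI 1 0 1 4 0 one_pos (f := fun _ => 1)
            (fun _ _ => rfl) (fun _ => isIntegral_one)) γ
        have h2 := ExZ_VI (a := 1) (b := 0) (c := 1) (D := 4) (by norm_num) (by norm_num)
          (by norm_num) 0 h1
        have h3 : (((0 : ℕ) : ℤ) + 1) = ((1 : ℕ) : ℤ) := by norm_num
        rw [h3] at h2
        exact h2)
    exact h
  · intro τ
    have hu : ∀ τ : ℍ, HasSum (fun n : ℕ => ((PowerSeries.coeff n (PowerSeries.mk cu) : ℤ) : ℂ) *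
        Complex.exp (2 * π * Complex.I * n * (τ : ℂ))) (uu τ) := by
      intro τ
      refine hs_congr' (uu_hs τ) fun n => ?_
      rw [PowerSeries.coeff_mk]
    have h1 := hs_mul _ _ hu hu τ
    have h2 := (hs_one τ).add (((hu τ).add h1).mul_left 4)
    have e : AA τ = 1 + 4 * (uu τ + uu τ * uu τ) := by
      rw [AA_eq]
      ring
    rw [e]
    refine hs_congr' h2 fun n => ?_
    have h4 : PowerSeries.coeff n (4 * (PowerSeries.mk cu + PowerSeries.mk cu * PowerSeries.mk cu)) =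
        4 * (PowerSeries.coeff n (PowerSeries.mk cu) +
          PowerSeries.coeff n (PowerSeries.mk cu * PowerSeries.mk cu)) := by
      rw [show (4 : PowerSeries ℤ) = PowerSeries.C 4 by simp, PowerSeries.coeff_C_mul, map_add]
    rw [map_add, h4]
    push_cast
    ring

end Vale.Agent.P022.H431
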