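import Vale.Agent.P022.H567.Cft
import Vale.Agent.P011.W.Compl

/-!
P022-CFT, [POW]: elements close to `1` are `n`-th powers in the completion.
-/

open NumberField IsDedekindDomain Polynomial

noncomputable section

namespace Vale.Agent.P022.H431

open Vale.Agent.P022.C

theorem valued_eq {K : Type} [Field K] [NumberField K] (v : HeightOneSpectrum (𝓞 K)) (x : K) :
    Valued.v (algebraMap K (v.adicCompletion K) x) = v.valuation K x :=
  v.valuedAdicCompletion_eq_valuation' x

/-- **[POW]** -/
theorem POW : POWStmt := by
  intro K _ _ v n hn a ha
  have hnat : ∀ m : ℕ, v.valuation K (m : K) ≤ 1 := by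
    intro m
    have := v.valuation_le_one (K := K) (m : 𝓞 K)
    simpa using this
  have h1 : v.valuation K ((n : K) ^ 2) ≤ 1 := by
    rw [map_pow]
    exact pow_le_one₀ zero_le (hnat n)
  have ha1 : v.valuation K a ≤ 1 := by
    have e : a = (a - 1) + 1 := by ring
    rw [e]
    refine (v.valuation K).map_add_le (ha.le.trans h1) ?_
    rw [map_one]
  obtain ⟨y, hy⟩ := Vale.Agent.P011.W.hensel v (X ^ n - C (algebraMap K (v.adicCompletion K) a))
    (fun i => by
      rw [coeff_sub, coeff_X_pow, coeff_C]
      refine (Valued.v.map_sub _ _).trans (max_le ?_ ?_)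
      · split_ifs
        · rw [map_one]
        · rw [map_zero]
          exact zero_le
      · split_ifs
        · rw [valued_eq]
          exact ha1
        · rw [map_zero]
          exact zero_le) 1 (by rw [map_one]) (by
      rw [eval_sub, eval_pow, eval_X, eval_C, one_pow, derivative_sub, derivative_X_pow,
        derivative_C, sub_zero, eval_mul, eval_pow, eval_X, one_pow, mul_one, eval_C]
      have e1 : (1 : v.adicCompletion K) - algebraMap K (v.adicCompletion K) a =
          -algebraMap K (v.adicCompletion K) (a - 1) := by
        rw [map_sub, map_one]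
        ring
      have e2 : ((n : ℕ) : v.adicCompletion K) = algebraMap K (v.adicCompletion K) (n : K) := by
        simp
      rw [e1, Valuation.map_neg, e2, ← map_pow, ← map_pow, valued_eq, valued_eq]
      exact ha)
  refine ⟨y, ?_⟩
  rw [eval_sub, eval_pow, eval_X, eval_C, sub_eq_zero] at hy
  exact hy

end Vale.Agent.P022.H431
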