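import Vale.Agent.P022.H472.Lit
import Vale.Agent.P022.H645.Tr
import Vale.Agent.P022.H889.E4
import Mathlib.NumberTheory.ModularForms.JacobiTheta.OneVariable

/-!
# P022, real quadratic case, row [OMEGA](c): the form `A = ∑ q ^ (x ^ 2 + y ^ 2)`

Part 1: `A = (1 + 2 u) ^ 2`, hence `A ∈ 1 + 4 O[[q]]`.
-/

open scoped ModularForm MatrixGroups Real
open UpperHalfPlane Matrix
open Vale.Agent.P022.H220

noncomputable section

namespace Vale.Agent.P022.H431

/-- `A = ∑ q ^ (x ^ 2 + y ^ 2)`, a form of weight one on `Γ₀(4)` with character `χ₋₄` -/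
def AA (τ : ℍ) : ℂ := th 1 0 1 4 0 (fun _ => 1) τ

/-- `∑_{n ≥ 1} q ^ (n ^ 2)` -/
def uu (τ : ℍ) : ℂ := (jacobiTheta (2 * (τ : ℂ)) - 1) / 2

theorem im2 (τ : ℍ) : 0 < (2 * (τ : ℂ)).im := by
  have := τ.im_pos
  simpa using this

theorem uu_hasSum (τ : ℍ) :
    HasSum (fun n : ℕ => Complex.exp (2 * π * Complex.I * ((n : ℂ) + 1) ^ 2 * (τ : ℂ))) (uu τ) := by
  refine hs_congr' (hasSum_nat_jacobiTheta (im2 τ)) fun n => ?_
  congr 1
  ring

theorem inj_sq : Function.Injective (fun n : ℕ => (n + 1) ^ 2) := by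
  intro a b h
  have : a + 1 = b + 1 := Nat.pow_left_injective (by norm_num : 2 ≠ 0) h
  omega

theorem Ex_uu (O : Subring ℂ) : Ex O.toAddSubgroup 1 uu := by
  classical
  refine ⟨fun n => if n ∈ Set.range (fun n : ℕ => (n + 1) ^ 2) then 1 else 0, fun n => ?_,
    fun τ => ?_⟩
  · dsimp only
    split_ifs
    · exact O.one_mem
    · exact O.zero_mem
  · refine (inj_sq.hasSum_iff ?_).1 (hs_congr' (uu_hasSum τ) fun n => ?_)
    · intro x hx
      dsimp only
      rw [if_neg hx, zero_mul]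
    · simp only [Function.comp_apply]
      rw [if_pos (Set.mem_range_self n), one_mul]
      congr 1
      push_cast
      ring

theorem AA_eq (τ : ℍ) : AA τ = (1 + 2 * uu τ) ^ 2 := by
  have h1 : jacobiTheta (2 * (τ : ℂ)) =
      ∑' n : ℤ, Complex.exp (π * Complex.I * (n : ℂ) ^ 2 * (2 * (τ : ℂ))) := rfl
  have hs : Summable (fun n : ℤ => Complex.exp (π * Complex.I * (n : ℂ) ^ 2 * (2 * (τ : ℂ)))) := by
    refine (hasSum_jacobiTheta₂_term 0 (im2 τ)).summable.congr fun n => ?_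
    rw [jacobiTheta₂_term]
    congr 1
    ring
  have h2 : (1 + 2 * uu τ) = jacobiTheta (2 * (τ : ℂ)) := by
    rw [uu]
    ring
  rw [h2, h1, sq, tsum_mul_tsum_of_summable_norm hs.norm hs.norm]
  unfold AA th
  refine tsum_congr fun v => ?_
  unfold thT Qf
  rw [← Complex.exp_add, pow_zero, mul_one, one_mul]
  congr 1
  push_cast
  ring

/-- `A - 1 = 4 (u + u ^ 2)` -/
theorem AA_sub_one (τ : ℍ) : AA τ - 1 = 4 * (uu τ + uu τ ^ 2) := by
  rw [AA_eq]
  ring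

/-- `A ∈ 1 + 4 O[[q]]` -/
theorem Ex_AA_one (O : Subring ℂ) : Ex (H645.two O 2) 1 (fun τ => AA τ - 1) := by
  have h1 : Ex O.toAddSubgroup 1 (fun τ => uu τ + uu τ ^ 2) := Ex.add (Ex_uu O) (Ex.pow (Ex_uu O) 2)
  refine Ex.congr (fun τ => AA_sub_one τ) (Ex.smul (fun a ha => ?_) h1)
  exact ⟨a, ha, by norm_num⟩

/-- the same in the letters of `H889` -/
theorem Ex_AA_one' (O : Subring ℂ) : Ex O.toAddSubgroup 1 (fun τ => (AA τ - 1) / 4) := by
  have h1 : Ex O.toAddSubgroup 1 (fun τ => uu τ + uu τ ^ 2) := Ex.add (Ex_uu O) (Ex.pow (Ex_uu O) 2)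
  refine Ex.congr (fun τ => ?_) h1
  rw [AA_sub_one]
  ring

end Vale.Agent.P022.H431
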